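import Vale.Agent.P073Z.Sk1

/-!
# Finite graphs with degrees one and two
-/

open Set

namespace P073

namespace A14

variable {E : Type} [NormedAddCommGroup E] [NormedSpace ℝ E] {ι : Type}

/-- the number of arcs through a point -/
noncomputable def deg (s : Finset ι) (A : ι → Set E) (x : E) : ℕ := {j | j ∈ s ∧ x ∈ A j}.ncard

/-- a component: a circle, or an arc whose ends are the ends of degree one -/
def Comp (s : Finset ι) (A : ι → Set E) (a b : ι → E) (c : Finset ι) : Prop :=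
  (IsCircle (⋃ i ∈ c, A i) ∧ ∀ i ∈ c, ∀ x ∈ ({a i, b i} : Set E), deg s A x = 2) ∨
  ∃ p q, IsArc (⋃ i ∈ c, A i) p q ∧ (∃ i ∈ c, p ∈ ({a i, b i} : Set E)) ∧
    (∃ i ∈ c, q ∈ ({a i, b i} : Set E)) ∧
    ∀ i ∈ c, ∀ x ∈ ({a i, b i} : Set E), (deg s A x = 1 ↔ (x = p ∨ x = q))

section deg

omit [NormedAddCommGroup E] [NormedSpace ℝ E]

variable {s : Finset ι} {A : ι → Set E} {x : E} {i : ι}

theorem deg_finite : {j | j ∈ s ∧ x ∈ A j}.Finite := s.finite_toSet.subset fun _ h => h.1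

theorem deg_insert_mem [DecidableEq ι] (hi : i ∉ s) (hx : x ∈ A i) :
    deg (insert i s) A x = deg s A x + 1 := by
  have : {j | j ∈ insert i s ∧ x ∈ A j} = insert i {j | j ∈ s ∧ x ∈ A j} := by
    ext j
    simp only [Finset.mem_insert, mem_ofPred_eq, mem_insert_iff]
    constructor
    · rintro ⟨h | h, h'⟩
      · exact Or.inl h
      · exact Or.inr ⟨h, h'⟩
    · rintro (h | h)
      · exact ⟨Or.inl h, h ▸ hx⟩
      · exact ⟨Or.inr h.1, h.2⟩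
  rw [deg, this, ncard_insert_of_notMem (fun h => hi h.1) deg_finite, deg]

theorem deg_insert_notMem [DecidableEq ι] (hx : x ∉ A i) :
    deg (insert i s) A x = deg s A x := by
  have : {j | j ∈ insert i s ∧ x ∈ A j} = {j | j ∈ s ∧ x ∈ A j} := by
    ext j
    simp only [Finset.mem_insert, mem_ofPred_eq]
    constructor
    · rintro ⟨h | h, h'⟩
      · exact absurd (h ▸ h') hx
      · exact ⟨h, h'⟩
    · exact fun h => ⟨Or.inr h.1, h.2⟩
  rw [deg, this, deg]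

theorem deg_pos (hi : i ∈ s) (hx : x ∈ A i) : 0 < deg s A x :=
  (ncard_pos deg_finite).2 ⟨i, hi, hx⟩

theorem deg_zero (h : ∀ j ∈ s, x ∉ A j) : deg s A x = 0 := by
  have : {j | j ∈ s ∧ x ∈ A j} = ∅ := eq_empty_of_forall_notMem fun j hj => h j hj.1 hj.2
  rw [deg, this, ncard_empty]

end deg

/-- the new component after one more arc is added -/
theorem comp_new [DecidableEq ι] {s : Finset ι} {A : ι → Set E} {a b : ι → E} {i₀ : ι}
    {𝒞 : Finset (Finset ι)} {c₀ : Finset ι} {u v : E} (hi₀ : i₀ ∉ s) (h₀ : IsArc (A i₀) u v)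
    (huv : ({a i₀, b i₀} : Set E) = {u, v}) (hA : ∀ i ∈ s, IsArc (A i) (a i) (b i))
    (hI : ∀ j ∈ s, ∀ x ∈ A j, x ∈ A i₀ → (x = u ∨ x = v) ∧ x ∈ ({a j, b j} : Set E))
    (hd : ∀ x, deg (insert i₀ s) A x ≤ 2) (hs : ∀ c ∈ 𝒞, c ⊆ s) (hcov : ∀ i ∈ s, ∃ c ∈ 𝒞, i ∈ c)
    (hdis : ∀ c ∈ 𝒞, ∀ c' ∈ 𝒞, c ≠ c' → Disjoint (⋃ i ∈ c, A i) (⋃ i ∈ c', A i))
    (hC : ∀ c ∈ 𝒞, Comp s A a b c)
    (hc₀ : ∀ j, j ∈ c₀ ↔ j = i₀ ∨ ∃ c ∈ 𝒞, (u ∈ (⋃ i ∈ c, A i) ∨ v ∈ ⋃ i ∈ c, A i) ∧ j ∈ c)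
    (hw : (∃ j ∈ s, v ∈ A j) → ∃ j ∈ s, u ∈ A j) : Comp (insert i₀ s) A a b c₀ := by
  have hu := h₀.left_mem
  have hv := h₀.right_mem
  have hne := h₀.ne
  have hend : ∀ j ∈ s, ∀ y ∈ ({a j, b j} : Set E), y ∈ A j := by
    rintro j hj y (rfl | rfl)
    exacts [(hA j hj).left_mem, (hA j hj).right_mem]
  have hone : ∀ j ∈ s, ∀ y ∈ A j, y ∈ A i₀ → deg s A y = 1 ∧ deg (insert i₀ s) A y = 2 := by
    intro j hj y hy hy₀
    have h1 := hd y
    have h2 := deg_insert_mem hi₀ hy₀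
    have h3 := deg_pos hj hy
    omega
  have hfree : ∀ y ∈ A i₀, (¬ ∃ j ∈ s, y ∈ A j) → deg (insert i₀ s) A y = 1 := by
    intro y hy h
    rw [deg_insert_mem hi₀ hy, deg_zero fun j hj hyj => h ⟨j, hj, hyj⟩]
  have hold : ∀ j ∈ s, ∀ y ∈ A j, y ≠ u → y ≠ v → deg (insert i₀ s) A y = deg s A y :=
    fun j hj y hy h1 h2 => deg_insert_notMem fun h => (hI j hj y hy h).1.elim h1 h2
  have harc : ∀ c ∈ 𝒞, ∀ x ∈ A i₀, x ∈ (⋃ i ∈ c, A i) → ∃ q, IsArc (⋃ i ∈ c, A i) x q ∧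
      (∃ i ∈ c, q ∈ ({a i, b i} : Set E)) ∧
      ∀ i ∈ c, ∀ y ∈ ({a i, b i} : Set E), (deg s A y = 1 ↔ (y = x ∨ y = q)) := by
    intro c hc x hx₀ hx
    obtain ⟨j, hj, hxj⟩ := mem_iUnion₂.1 hx
    have hjs := hs c hc hj
    have h1 := (hone j hjs x hxj hx₀).1
    have h2 := (hI j hjs x hxj hx₀).2
    rcases hC c hc with ⟨-, h⟩ | ⟨p, q, h, hp, hq, h'⟩
    · have := h j hj x h2
      omega
    · rcases (h' j hj x h2).1 h1 with rfl | rfl
      · exact ⟨q, h, hq, h'⟩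
      · exact ⟨p, h.symm, hp, fun i hi y hy => (h' i hi y hy).trans or_comm⟩
  have huniq : ∀ c ∈ 𝒞, ∀ c' ∈ 𝒞, ∀ x, x ∈ (⋃ i ∈ c, A i) → x ∈ (⋃ i ∈ c', A i) → c' = c := by
    intro c hc c' hc' x h h'
    by_contra hne
    exact Set.disjoint_left.1 (hdis c' hc' c hc hne) h' h
  have hin : ∀ c ∈ 𝒞, ∀ x, x ∈ (⋃ i ∈ c, A i) → ∃ j ∈ s, x ∈ A j := fun c hc x hx =>
    let ⟨j, hj, hxj⟩ := mem_iUnion₂.1 hx; ⟨j, hs c hc hj, hxj⟩
  have hint : ∀ c ∈ 𝒞, ∀ x, x ∈ (⋃ i ∈ c, A i) → x ∈ A i₀ → x = u ∨ x = v := fun c hc x hx h =>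
    let ⟨j, hj, hxj⟩ := hin c hc x hx; (hI j hj x hxj h).1
  have hi₀c : i₀ ∈ c₀ := (hc₀ i₀).2 (Or.inl rfl)
  by_cases hu' : ∃ j ∈ s, u ∈ A j
  swap
  · have hv' : ¬ ∃ j ∈ s, v ∈ A j := fun h => hu' (hw h)
    have e : ∀ j, j ∈ c₀ ↔ j = i₀ := fun j => (hc₀ j).trans ⟨fun h => h.resolve_right
      fun ⟨c, hc, h, _⟩ => h.elim (fun h => hu' (hin c hc u h)) (fun h => hv' (hin c hc v h)),
      Or.inl⟩
    have e' : (⋃ i ∈ c₀, A i) = A i₀ := by simp only [e, iUnion_iUnion_eq_left]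
    refine Or.inr ⟨u, v, e' ▸ h₀, ⟨i₀, hi₀c, huv ▸ Or.inl rfl⟩, ⟨i₀, hi₀c, huv ▸ Or.inr rfl⟩, ?_⟩
    intro i hi x hx
    rw [(e i).1 hi, huv] at hx
    refine ⟨fun _ => hx, fun _ => ?_⟩
    rcases hx with rfl | rfl
    exacts [hfree _ hu hu', hfree _ hv hv']
  obtain ⟨ju, hju, huj⟩ := hu'
  obtain ⟨c, hc, hjc⟩ := hcov ju hju
  have huc : u ∈ ⋃ i ∈ c, A i := mem_iUnion₂.2 ⟨ju, hjc, huj⟩
  obtain ⟨p, hp, hp', hpd⟩ := harc c hc u hu huc
  have hu2 := (hone ju hju u huj hu).2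
  by_cases hv' : ∃ j ∈ s, v ∈ A j
  swap
  · have e : ∀ j, j ∈ c₀ ↔ j ∈ c ∨ j = i₀ := fun j => (hc₀ j).trans
      ⟨fun h => h.symm.imp_left fun ⟨c', hc', h, hj⟩ => h.elim
        (fun h => huniq c hc c' hc' u huc h ▸ hj) (fun h => absurd (hin c' hc' v h) hv'),
      fun h => h.symm.imp_right fun h => ⟨c, hc, Or.inl huc, h⟩⟩
    have e' : (⋃ i ∈ c₀, A i) = (⋃ i ∈ c, A i) ∪ A i₀ := by
      simp only [e, iUnion_or, iUnion_union_distrib, iUnion_iUnion_eq_left]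
    refine Or.inr ⟨p, v, e' ▸ hp.symm.trans h₀ fun x hx => ?_,
      hp'.imp fun i hi => ⟨(e i).2 (Or.inl hi.1), hi.2⟩, ⟨i₀, hi₀c, huv ▸ Or.inr rfl⟩, ?_⟩
    · exact (hint c hc x hx.1 hx.2).resolve_right fun h => hv' (hin c hc v (h ▸ hx.1))
    · intro i hi x hx
      have hxu : x = u → (deg (insert i₀ s) A x = 1 ↔ (x = p ∨ x = v)) := by
        rintro rfl
        exact ⟨fun h => by omega, fun h => h.elim (fun h => absurd h hp.ne) fun h => absurd h hne⟩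
      rcases (e i).1 hi with hi | rfl
      · by_cases h1 : x = u
        · exact hxu h1
        have hxi := hend i (hs c hc hi) x hx
        have h2 : x ≠ v := fun h => hv' ⟨i, hs c hc hi, h ▸ hxi⟩
        rw [hold i (hs c hc hi) x hxi h1 h2, hpd i hi x hx]
        tauto
      · rw [huv] at hx
        rcases hx with h | rfl
        · exact hxu h
        · exact ⟨fun _ => Or.inr rfl, fun _ => hfree _ hv hv'⟩
  obtain ⟨jv, hjv, hvj⟩ := hv'
  obtain ⟨c', hc', hjc'⟩ := hcov jv hjv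
  have hvc : v ∈ ⋃ i ∈ c', A i := mem_iUnion₂.2 ⟨jv, hjc', hvj⟩
  obtain ⟨q, hq, hq', hqd⟩ := harc c' hc' v hv hvc
  have hv2 := (hone jv hjv v hvj hv).2
  have e : ∀ j, j ∈ c₀ ↔ (j ∈ c ∨ j = i₀) ∨ j ∈ c' := fun j => (hc₀ j).trans
    ⟨fun h => h.elim (fun h => Or.inl (Or.inr h)) fun ⟨c'', hc'', h, hj⟩ => h.elim
      (fun h => Or.inl (Or.inl (huniq c hc c'' hc'' u huc h ▸ hj)))
      (fun h => Or.inr (huniq c' hc' c'' hc'' v hvc h ▸ hj)),
    fun h => h.elim (fun h => h.symm.imp_right fun h => ⟨c, hc, Or.inl huc, h⟩)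
      fun h => Or.inr ⟨c', hc', Or.inr hvc, h⟩⟩
  have e' : (⋃ i ∈ c₀, A i) = ((⋃ i ∈ c, A i) ∪ A i₀) ∪ ⋃ i ∈ c', A i := by
    simp only [e, iUnion_or, iUnion_union_distrib, iUnion_iUnion_eq_left]
  by_cases hcc : c' = c
  · subst hcc
    have hpv : v = p := ((hpd jv hjc' v (hI jv hjv v hvj hv).2).1
      (hone jv hjv v hvj hv).1).resolve_left hne.symm
    subst hpv
    have e'' : (⋃ i ∈ c₀, A i) = (⋃ i ∈ c', A i) ∪ A i₀ := by
      rw [e', union_comm, ← union_assoc, union_self]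
    refine Or.inl ⟨e'' ▸ isCircle_of_arcs hp h₀ fun x hx => hint c' hc x hx.1 hx.2, ?_⟩
    intro i hi x hx
    by_cases h1 : x = u
    · exact h1 ▸ hu2
    by_cases h2 : x = v
    · exact h2 ▸ hv2
    have hi' : i ∈ c' := by
      rcases (e i).1 hi with (hi | rfl) | hi
      · exact hi
      · rw [huv] at hx
        exact (hx.elim h1 h2).elim
      · exact hi
    have hxi := hend i (hs c' hc hi') x hx
    have h3 := hold i (hs c' hc hi') x hxi h1 h2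
    have h4 := deg_pos (hs c' hc hi') hxi
    have h5 := hd x
    have h6 : deg s A x ≠ 1 := fun h => ((hpd i hi' x hx).1 h).elim h1 h2
    omega
  have hdj : ∀ x, x ∈ (⋃ i ∈ c, A i) → x ∉ ⋃ i ∈ c', A i := fun x h h' =>
    hcc (huniq c hc c' hc' x h h')
  have harc1 : IsArc ((⋃ i ∈ c, A i) ∪ A i₀) p v := hp.symm.trans h₀ fun x hx =>
    (hint c hc x hx.1 hx.2).resolve_right fun h => hdj x hx.1 (h ▸ hvc)
  refine Or.inr ⟨p, q, e' ▸ harc1.trans hq fun x hx => ?_,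
    hp'.imp fun i hi => ⟨(e i).2 (Or.inl (Or.inl hi.1)), hi.2⟩,
    hq'.imp fun i hi => ⟨(e i).2 (Or.inr hi.1), hi.2⟩, ?_⟩
  · rcases hx.1 with h | h
    · exact absurd hx.2 (hdj x h)
    · exact (hint c' hc' x hx.2 h).resolve_left fun h' => hdj x (h' ▸ huc) hx.2
  · intro i hi x hx
    by_cases h1 : x = u
    · subst h1
      exact ⟨fun h => by omega, fun h => h.elim (fun h => absurd h hp.ne)
        fun h => absurd (h ▸ hq.right_mem) (hdj x huc)⟩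
    by_cases h2 : x = v
    · subst h2
      exact ⟨fun h => by omega, fun h => h.elim
        (fun h => absurd hvc (hdj x (h ▸ hp.right_mem))) fun h => absurd h hq.ne⟩
    rcases (e i).1 hi with (hi | rfl) | hi
    · have hxi := hend i (hs c hc hi) x hx
      have h3 : x ≠ q := fun h => hdj x (mem_iUnion₂.2 ⟨i, hi, hxi⟩) (h ▸ hq.right_mem)
      rw [hold i (hs c hc hi) x hxi h1 h2, hpd i hi x hx]
      tauto
    · rw [huv] at hx
      exact (hx.elim h1 h2).elim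
    · have hxi := hend i (hs c' hc' hi) x hx
      have h3 : x ≠ p := fun h => hdj x (h ▸ hp.right_mem) (mem_iUnion₂.2 ⟨i, hi, hxi⟩)
      rw [hold i (hs c' hc' hi) x hxi h1 h2, hqd i hi x hx]
      tauto

/-- strong form: the ends of an arc component are ends of members -/
theorem exists_comps (s : Finset ι) (A : ι → Set E) (a b : ι → E)
    (hA : ∀ i ∈ s, IsArc (A i) (a i) (b i))
    (hI : ∀ i ∈ s, ∀ j ∈ s, i ≠ j → A i ∩ A j ⊆ {a i, b i} ∩ {a j, b j})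
    (hd : ∀ x, deg s A x ≤ 2) :
    ∃ 𝒞 : Finset (Finset ι), (∀ c ∈ 𝒞, c ⊆ s) ∧ (∀ i ∈ s, ∃ c ∈ 𝒞, i ∈ c) ∧
      (∀ c ∈ 𝒞, ∀ c' ∈ 𝒞, c ≠ c' → Disjoint (⋃ i ∈ c, A i) (⋃ i ∈ c', A i)) ∧
      ∀ c ∈ 𝒞, Comp s A a b c := by
  classical
  induction s using Finset.induction_on with
  | empty => exact ⟨∅, by simp, by simp, by simp, by simp⟩
  | insert i₀ s hi₀ ih =>
    have hA' : ∀ i ∈ s, IsArc (A i) (a i) (b i) := fun i hi => hA i (Finset.mem_insert_of_mem hi)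
    have h₀ := hA i₀ (Finset.mem_insert_self _ _)
    have hI₀ : ∀ j ∈ s, ∀ x ∈ A j, x ∈ A i₀ →
        (x = a i₀ ∨ x = b i₀) ∧ x ∈ ({a j, b j} : Set E) := fun j hj x hx hx₀ =>
      hI i₀ (Finset.mem_insert_self _ _) j (Finset.mem_insert_of_mem hj)
        (fun h => hi₀ (h ▸ hj)) ⟨hx₀, hx⟩
    obtain ⟨𝒞, hs, hcov, hdis, hC⟩ := ih hA' (fun i hi j hj => hI i (Finset.mem_insert_of_mem hi)
      j (Finset.mem_insert_of_mem hj)) (fun x => by
        have := hd x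
        by_cases hx : x ∈ A i₀
        · rw [deg_insert_mem hi₀ hx] at this
          omega
        · rwa [deg_insert_notMem hx] at this)
    let P : Finset ι → Prop := fun c => a i₀ ∈ (⋃ i ∈ c, A i) ∨ b i₀ ∈ ⋃ i ∈ c, A i
    let c₀ : Finset ι := insert i₀ ((𝒞.filter P).biUnion id)
    have hc₀ : ∀ j, j ∈ c₀ ↔ j = i₀ ∨ ∃ c ∈ 𝒞, P c ∧ j ∈ c := by
      intro j
      simp only [c₀, Finset.mem_insert, Finset.mem_biUnion, Finset.mem_filter, id, and_assoc]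
    have hfar : ∀ c ∈ 𝒞, ¬ P c → ∀ x, x ∈ (⋃ i ∈ c, A i) → x ∉ A i₀ := by
      intro c hc hP x hx hx₀
      obtain ⟨j, hj, hxj⟩ := mem_iUnion₂.1 hx
      rcases (hI₀ j (hs c hc hj) x hxj hx₀).1 with h | h
      exacts [hP (Or.inl (h ▸ hx)), hP (Or.inr (h ▸ hx))]
    have hd₀ : ∀ c ∈ 𝒞, ¬ P c → Disjoint (⋃ i ∈ c₀, A i) (⋃ i ∈ c, A i) := by
      intro c hc hP
      refine Set.disjoint_left.2 fun x hx hx' => ?_
      obtain ⟨j, hj, hxj⟩ := mem_iUnion₂.1 hx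
      rcases (hc₀ j).1 hj with rfl | ⟨c', hc', hP', hj'⟩
      · exact hfar c hc hP x hx' hxj
      · exact Set.disjoint_left.1 (hdis c' hc' c hc fun h => hP (h ▸ hP'))
          (mem_iUnion₂.2 ⟨j, hj', hxj⟩) hx'
    refine ⟨insert c₀ (𝒞.filter fun c => ¬ P c), ?_, ?_, ?_, ?_⟩
    · intro c hc j hj
      rcases Finset.mem_insert.1 hc with rfl | hc
      · rcases (hc₀ j).1 hj with rfl | ⟨c', hc', -, hj'⟩
        exacts [Finset.mem_insert_self _ _, Finset.mem_insert_of_mem (hs c' hc' hj')]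
      · exact Finset.mem_insert_of_mem (hs c (Finset.mem_filter.1 hc).1 hj)
    · intro i hi
      rcases Finset.mem_insert.1 hi with rfl | hi
      · exact ⟨c₀, Finset.mem_insert_self _ _, (hc₀ _).2 (Or.inl rfl)⟩
      · obtain ⟨c, hc, hic⟩ := hcov i hi
        by_cases hP : P c
        · exact ⟨c₀, Finset.mem_insert_self _ _, (hc₀ _).2 (Or.inr ⟨c, hc, hP, hic⟩)⟩
        · exact ⟨c, Finset.mem_insert_of_mem (Finset.mem_filter.2 ⟨hc, hP⟩), hic⟩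
    · intro c hc c' hc' hne
      rcases Finset.mem_insert.1 hc with rfl | hc <;> rcases Finset.mem_insert.1 hc' with rfl | hc'
      · exact absurd rfl hne
      · exact hd₀ c' (Finset.mem_filter.1 hc').1 (Finset.mem_filter.1 hc').2
      · exact (hd₀ c (Finset.mem_filter.1 hc).1 (Finset.mem_filter.1 hc).2).symm
      · exact hdis c (Finset.mem_filter.1 hc).1 c' (Finset.mem_filter.1 hc').1 hne
    · intro c hc
      rcases Finset.mem_insert.1 hc with rfl | hc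
      · by_cases hw : (∃ j ∈ s, b i₀ ∈ A j) → ∃ j ∈ s, a i₀ ∈ A j
        · exact comp_new hi₀ h₀ rfl hA' hI₀ hd hs hcov hdis hC hc₀ hw
        · exact comp_new hi₀ h₀.symm (pair_comm _ _) hA'
            (fun j hj x hx hx₀ => (hI₀ j hj x hx hx₀).imp_left Or.symm) hd hs hcov hdis hC
            (fun j => (hc₀ j).trans (or_congr_right (exists_congr fun c =>
              and_congr_right fun _ => and_congr_left fun _ => or_comm)))
            (fun h => absurd (fun _ => h) hw)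
      · obtain ⟨hc, hP⟩ := Finset.mem_filter.1 hc
        have hsame : ∀ i ∈ c, ∀ x ∈ ({a i, b i} : Set E),
            deg (insert i₀ s) A x = deg s A x := by
          intro i hi x hx
          refine deg_insert_notMem (hfar c hc hP x (mem_iUnion₂.2 ⟨i, hi, ?_⟩))
          rcases hx with rfl | rfl
          exacts [(hA' i (hs c hc hi)).left_mem, (hA' i (hs c hc hi)).right_mem]
        rcases hC c hc with ⟨h, h'⟩ | ⟨p, q, h, hp, hq, h'⟩
        · exact Or.inl ⟨h, fun i hi x hx => (hsame i hi x hx).trans (h' i hi x hx)⟩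
        · exact Or.inr ⟨p, q, h, hp, hq, fun i hi x hx => (hsame i hi x hx) ▸ h' i hi x hx⟩

end A14

theorem cyc : CYC := by
  intro E _ _ ι s A a b hA hI hd
  obtain ⟨𝒞, h1, h2, h3, h4⟩ := A14.exists_comps s A a b hA hI hd
  refine ⟨𝒞, h1, h2, h3, fun c hc => ?_⟩
  rcases h4 c hc with h | ⟨p, q, h, -, -, h'⟩
  · exact Or.inl h
  · exact Or.inr ⟨p, q, h, h'⟩

end P073
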