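import Vale.Agent.P073Z.Sk1
import Vale.Agent.P073Z.RCX
import Vale.Agent.P073Z.A7a.Cvx

/-!
# Generic levels of a PL function: the local picture
-/

open Set Metric Topology Filter

namespace P073

namespace A14

variable {E : Type} [NormedAddCommGroup E] [NormedSpace ℝ E] [FiniteDimensional ℝ E]

/-- `g` is affine on the cells of `K` in `D` and not constant equal to `t` on any of them -/
structure Gen (K : RCx E) (D : Set E) (g : E → ℝ) (t : ℝ) : Prop where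
  cvx : K.Cvx
  sub : K.Sub D
  aff : ∀ i, K.cell i ⊆ D → ∃ A : E →ᵃ[ℝ] ℝ, EqOn g A (K.cell i)
  gen : ∀ i, K.cell i ⊆ D → ∃ y ∈ K.cell i, g y ≠ t

theorem exists_gen (hT : TRI) {D B : Set E} {g : E → ℝ} (hD : IsCompact D) (hD' : LocCone D)
    (hB : IsClosed B) (hB' : LocCone B) (hBD : B ⊆ D) (hg : PLOn g D) :
    ∃ K : RCx E, K.Sub B ∧ ∃ T : Set ℝ, T.Finite ∧ ∀ t, t ∉ T → Gen K D g t := by
  obtain ⟨K, h1, h2, -, h3⟩ := hT (κ := Bool) (U := univ) (fun k => if k then D else B)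
    (fun _ => g) (r := fun _ => 1) isOpen_univ ⟨continuousOn_const, fun _ _ => one_pos⟩
    (fun _ _ => ⟨univ, univ_mem, toFinite _⟩) (by
      rintro (_ | _)
      · exact ⟨subset_univ _, closedIn_of_isClosed hB _, fun x _ => hB' x,
          hg.1.mono hBD, hg.2.mono hB'.conicalSet hBD⟩
      · exact ⟨subset_univ _, closedIn_of_isClosed hD.isClosed _, fun x _ => hD' x, hg⟩)
  have hf : {i | K.cell i ⊆ D}.Finite := K.finite_subset hD (h2 ▸ subset_univ _)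
  refine ⟨K, (h3 false).1, (fun i => g (K.cell_nonempty i).some) '' {i | K.cell i ⊆ D},
    hf.image _, fun t ht => ⟨h1, (h3 true).1, (h3 true).2, fun i hi => ?_⟩⟩
  exact ⟨_, (K.cell_nonempty i).some_mem, fun h => ht ⟨i, hi, h⟩⟩

omit [FiniteDimensional ℝ E] in
theorem aff_line (A : E →ᵃ[ℝ] ℝ) (x d : E) (s : ℝ) : A (x + s • d) = A x + s * A.linear d := by
  rw [add_comm x, ← vadd_eq_add, A.map_vadd, map_smul, vadd_eq_add, smul_eq_mul, add_comm]

omit [FiniteDimensional ℝ E] in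
theorem mem_of_ends {C : Set E} (hC : Convex ℝ C) {x d : E} (h1 : x + d ∈ C) (h2 : x - d ∈ C)
    {s : ℝ} (hs : s ∈ Icc (-1:ℝ) 1) : x + s • d ∈ C := by
  have := hC h1 h2 (a := (1 + s) / 2) (b := (1 - s) / 2) (by linarith [hs.1]) (by linarith [hs.2])
    (by ring)
  have e : ((1 + s) / 2) • (x + d) + ((1 - s) / 2) • (x - d) = x + s • d := by
    match_scalars <;> ring
  rwa [e] at this

variable {K : RCx E} {D : Set E} {g : E → ℝ} {t : ℝ} {x : E}

/-- the function changes sign along a segment of the carrier cell -/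
theorem Gen.sign (h : Gen K D g t) {c : K.ι} (hx : x ∈ K.ocell c) (hc : K.cell c ⊆ D)
    (hxt : g x = t) : ∃ (d : E) (m : ℝ), 0 < m ∧ ∀ s ∈ Icc (-1:ℝ) 1,
      x + s • d ∈ K.cell c ∧ g (x + s • d) = t + s * m := by
  obtain ⟨A, hA⟩ := h.aff c hc
  obtain ⟨y, hy, hyt⟩ := h.gen c hc
  obtain ⟨τ, hτ, hb⟩ := exists_beyond hy (h.cvx.ocell_eq c ▸ hx)
  have hcv := (h.cvx c).1
  set ε := min (τ - 1) 1 with hε
  have hε0 : 0 < ε := lt_min (by linarith) one_pos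
  have h1 : x + ε • (y - x) ∈ K.cell c := hcv.add_smul_sub_mem hx.1 hy ⟨hε0.le, min_le_right _ _⟩
  have h2 : x - ε • (y - x) ∈ K.cell c := by
    have hτ' : 0 < τ - 1 := by linarith
    have := hcv.add_smul_sub_mem hx.1 hb (t := ε / (τ - 1))
      ⟨by positivity, (div_le_one hτ').2 (min_le_left _ _)⟩
    have e : x + (ε / (τ - 1)) • (AffineMap.lineMap y x τ - x) = x - ε • (y - x) := by
      rw [AffineMap.lineMap_apply, vadd_eq_add, vsub_eq_sub]
      match_scalars <;> field_simp <;> ring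
    rwa [e] at this
  have h3 : A.linear (y - x) = g y - t := by
    have := aff_line A x (y - x) 1
    rw [one_smul, add_sub_cancel, ← hA hy, ← hA hx.1, hxt] at this
    linarith
  rcases lt_or_gt_of_ne hyt with hl | hl
  · refine ⟨-(ε • (y - x)), ε * (t - g y), mul_pos hε0 (by linarith), fun s hs => ?_⟩
    have h4 := mem_of_ends hcv (d := -(ε • (y - x))) (by rwa [← sub_eq_add_neg])
      (by rwa [sub_neg_eq_add]) hs
    refine ⟨h4, ?_⟩
    rw [hA h4, aff_line, ← hA hx.1, hxt, map_neg, map_smul, h3, smul_eq_mul]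
    ring
  · refine ⟨ε • (y - x), ε * (g y - t), mul_pos hε0 (by linarith), fun s hs => ?_⟩
    have h4 := mem_of_ends hcv h1 h2 hs
    refine ⟨h4, ?_⟩
    rw [hA h4, aff_line, ← hA hx.1, hxt, map_smul, h3, smul_eq_mul]

omit [FiniteDimensional ℝ E] in
theorem exists_small {V : Set E} (hV : V ∈ 𝓝 x) (d : E) :
    ∃ s ∈ Ioo (0:ℝ) 1, x + s • d ∈ V ∧ x + (-s) • d ∈ V := by
  have h1 : Tendsto (fun s : ℝ => x + s • d) (𝓝 0) (𝓝 x) :=
    (by fun_prop : Continuous fun s : ℝ => x + s • d).tendsto' 0 x (by simp)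
  have h2 : Tendsto (fun s : ℝ => x + (-s) • d) (𝓝 0) (𝓝 x) :=
    (by fun_prop : Continuous fun s : ℝ => x + (-s) • d).tendsto' 0 x (by simp)
  obtain ⟨s, hs, hs'⟩ := ((((h1.eventually_mem hV).and (h2.eventually_mem hV)).filter_mono
    nhdsWithin_le_nhds).and (Ioo_mem_nhdsGT (zero_lt_one' ℝ))).exists
  exact ⟨s, hs', hs⟩

/-- both signs occur near the point, inside the carrier cell -/
theorem Gen.near (h : Gen K D g t) {c : K.ι} (hx : x ∈ K.ocell c) (hc : K.cell c ⊆ D)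
    (hxt : g x = t) {V : Set E} (hV : V ∈ 𝓝 x) :
    (∃ z ∈ K.cell c ∩ V, t < g z) ∧ ∃ z ∈ K.cell c ∩ V, g z < t := by
  obtain ⟨d, m, hm, hd⟩ := h.sign hx hc hxt
  obtain ⟨s, hs, h1, h2⟩ := exists_small hV d
  have h3 := hd s ⟨by linarith [hs.1], hs.2.le⟩
  have h4 := hd (-s) ⟨by linarith [hs.2], by linarith [hs.1]⟩
  have h5 := mul_pos hs.1 hm
  exact ⟨⟨_, ⟨h3.1, h1⟩, by rw [h3.2]; linarith⟩, _, ⟨h4.1, h2⟩, by rw [h4.2]; linarith⟩

theorem Gen.closure (h : Gen K D g t) {X : Set E} (hX : K.Sub X) (hXD : X ⊆ D) (hx : x ∈ X)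
    (hxt : g x = t) : x ∈ closure {y ∈ X | t < g y} ∧ x ∈ closure {y ∈ X | g y < t} := by
  obtain ⟨c, hc, hcX⟩ := hX.exists_ocell hx
  refine ⟨mem_closure_iff_nhds.2 fun V hV => ?_, mem_closure_iff_nhds.2 fun V hV => ?_⟩
  · obtain ⟨z, hz, hzt⟩ := (h.near hc (hcX.trans hXD) hxt hV).1
    exact ⟨z, hz.2, hcX hz.1, hzt⟩
  · obtain ⟨z, hz, hzt⟩ := (h.near hc (hcX.trans hXD) hxt hV).2
    exact ⟨z, hz.2, hcX hz.1, hzt⟩

omit [FiniteDimensional ℝ E] in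
theorem Gen.preconn (h : Gen K D g t) {c : K.ι} {O : Set E} (hO : Convex ℝ O)
    (hOc : ∀ y ∈ O, ∀ i, y ∈ K.cell i → K.cell c ⊆ K.cell i) {J : Set ℝ} (hJ : Convex ℝ J)
    {z : E} (hz : z ∈ K.cell c ∩ O) (hzJ : g z ∈ J) :
    IsPreconnected {y ∈ D ∩ O | g y ∈ J} := by
  refine isPreconnected_of_forall z fun y hy => ?_
  obtain ⟨i, hi, hiD⟩ := h.sub y hy.1.1
  obtain ⟨A, hA⟩ := h.aff i hiD
  have hzi := hOc y hy.1.2 i hi hz.1
  refine ⟨K.cell i ∩ O ∩ A ⁻¹' J, fun w hw => ⟨⟨hiD hw.1.1, hw.1.2⟩, ?_⟩,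
    ⟨⟨hzi, hz.2⟩, ?_⟩, ⟨⟨hi, hy.1.2⟩, ?_⟩,
    (((h.cvx i).1.inter hO).inter (hJ.affine_preimage A)).isPreconnected⟩
  · rw [hA hw.1.1]
    exact hw.2
  · rw [mem_preimage, ← hA hzi]
    exact hzJ
  · rw [mem_preimage, ← hA hi]
    exact hy.2

theorem Gen.local (h : Gen K D g t) (hx : x ∈ D) (hxt : g x = t) {U : Set E} (hU : U ∈ 𝓝 x) :
    ∃ O, IsOpen O ∧ x ∈ O ∧ O ⊆ U ∧ IsPreconnected {y ∈ D ∩ O | t < g y} ∧
      IsPreconnected {y ∈ D ∩ O | g y < t} := by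
  obtain ⟨c, hc, hcD⟩ := h.sub.exists_ocell hx
  obtain ⟨r, hr, hb⟩ := Metric.mem_nhds_iff.1 (inter_mem hU (K.eventually_coface hc))
  obtain ⟨⟨z, hz, hzt⟩, z', hz', hzt'⟩ := h.near hc hcD hxt (ball_mem_nhds x hr)
  exact ⟨ball x r, isOpen_ball, mem_ball_self hr, fun y hy => (hb hy).1,
    h.preconn (convex_ball x r) (fun y hy => (hb hy).2) (convex_Ioi t) hz hzt,
    h.preconn (convex_ball x r) (fun y hy => (hb hy).2) (convex_Iio t) hz' hzt'⟩

end A14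

end P073
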