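import Vale.Agent.P073Z.A14.Loc
import Vale.Agent.P073Z.A14.Cyc

/-!
# Generic levels in the plane
-/

open Set Metric Topology Filter

namespace P073

namespace A14

/-- the determinant of two plane vectors -/
def cr (d v : ℝ × ℝ) : ℝ := d.1 * v.2 - d.2 * v.1

theorem cr_neg (d v : ℝ × ℝ) : cr (-d) v = - cr d v := by
  simp only [cr, Prod.fst_neg, Prod.snd_neg]
  ring

theorem cr_smul (d v : ℝ × ℝ) (s : ℝ) : cr d (s • v) = s * cr d v := by
  simp only [cr, Prod.smul_fst, Prod.smul_snd, smul_eq_mul]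
  ring

theorem cramer {d w : ℝ × ℝ} (h : cr d w ≠ 0) (v : ℝ × ℝ) :
    v = (cr v w / cr d w) • d + (cr d v / cr d w) • w := by
  ext
  · simp only [Prod.fst_add, Prod.smul_fst, smul_eq_mul]
    field_simp
    simp only [cr]
    ring
  · simp only [Prod.snd_add, Prod.smul_snd, smul_eq_mul]
    field_simp
    simp only [cr]
    ring

theorem cr_perp {d : ℝ × ℝ} (hd : d ≠ 0) : 0 < cr d (-d.2, d.1) := by
  by_contra h0
  have h1 : d.1 * d.1 + d.2 * d.2 ≤ 0 := by
    simp only [cr] at h0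
    linarith
  have h2 := mul_self_nonneg d.1
  have h3 := mul_self_nonneg d.2
  exact hd (Prod.ext (mul_self_eq_zero.1 (by linarith : d.1 * d.1 = 0))
    (mul_self_eq_zero.1 (by linarith : d.2 * d.2 = 0)))

theorem exists_smul_of_cr {d v : ℝ × ℝ} (hd : d ≠ 0) (h : cr d v = 0) : ∃ α : ℝ, v = α • d := by
  have := cramer (cr_perp hd).ne' v
  rw [h, zero_div, zero_smul, add_zero] at this
  exact ⟨_, this⟩

variable {C : Set (ℝ × ℝ)} {x d w : ℝ × ℝ}

/-- points on the side of an interior point are interior -/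
theorem side_interior (hC : Convex ℝ C) (hd : ∀ s ∈ Icc (-1:ℝ) 1, x + s • d ∈ C)
    (hw : w ∈ interior C) (h1 : 0 < cr d (w - x)) {v : ℝ × ℝ} (h2 : 0 < cr d v) :
    ∀ᶠ s in 𝓝[>] (0:ℝ), x + s • v ∈ interior C := by
  have hv := cramer h1.ne' v
  generalize cr v (w - x) / cr d (w - x) = α at hv
  have hβ : 0 < cr d v / cr d (w - x) := div_pos h2 h1
  generalize cr d v / cr d (w - x) = β at hv hβ
  have t1 : ∀ᶠ s in 𝓝 (0:ℝ), s * (β + |α|) < 1 :=
    (by fun_prop : Continuous fun s : ℝ => s * (β + |α|)).continuousAt.eventually_lt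
      continuousAt_const (by simp)
  filter_upwards [mem_nhdsWithin_of_mem_nhds t1, self_mem_nhdsWithin] with s hs hs0
  have hs0 : 0 < s := hs0
  have a1 : 0 ≤ s * |α| := by positivity
  have a2 : 0 < 1 - s * β := by linarith
  have a3 : |s * α| ≤ 1 - s * β := by
    rw [abs_mul, abs_of_pos hs0]
    linarith
  have a4 := hd (s * α / (1 - s * β)) ⟨(le_div_iff₀ a2).2 (by linarith [(abs_le.1 a3).1]),
    (div_le_one a2).2 (abs_le.1 a3).2⟩
  have a5 := hC.combo_self_interior_mem_interior a4 hw a2.le (mul_pos hs0 hβ) (by ring)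
  have e : (1 - s * β) • (x + (s * α / (1 - s * β)) • d) + (s * β) • w = x + s • v := by
    rw [hv]
    match_scalars
    all_goals field_simp
    all_goals ring
  rwa [e] at a5

/-- an interior point on the line -/
theorem interior_of_line (hC : Convex ℝ C) (hd : ∀ s ∈ Icc (-1:ℝ) 1, x + s • d ∈ C)
    (hd0 : d ≠ 0) (hw : w ∈ interior C) (h : cr d (w - x) = 0) : x ∈ interior C := by
  obtain ⟨α, hα⟩ := exists_smul_of_cr hd0 h
  have hw' : w = x + α • d := by rw [← hα, add_sub_cancel]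
  have a0 : 0 < 1 + |α| := by positivity
  have a1 := hd (-(α / (1 + |α|))) ⟨by
    rw [neg_le_neg_iff, div_le_one a0]
    linarith [le_abs_self α], by
    rw [neg_le, le_div_iff₀ a0]
    linarith [neg_abs_le α]⟩
  have a2 := hC.combo_self_interior_mem_interior a1 hw (a := (1 + |α|) / (2 + |α|))
    (b := 1 / (2 + |α|)) (by positivity) (by positivity) (by field_simp; ring)
  have e : ((1 + |α|) / (2 + |α|)) • (x + (-(α / (1 + |α|))) • d) + (1 / (2 + |α|)) • w = x := by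
    rw [hw']
    match_scalars <;> field_simp <;> ring
  rwa [e] at a2

/-- points on both sides -/
theorem interior_of_sides (hC : Convex ℝ C) (hd : ∀ s ∈ Icc (-1:ℝ) 1, x + s • d ∈ C)
    (hd0 : d ≠ 0) (hw : w ∈ interior C) (h1 : 0 < cr d (w - x)) {y : ℝ × ℝ} (hy : y ∈ C)
    (h2 : cr d (y - x) < 0) : x ∈ interior C := by
  have a0 : 0 < cr d (w - x) - cr d (y - x) := by linarith
  have a1 := hC.combo_self_interior_mem_interior hy hw
    (a := cr d (w - x) / (cr d (w - x) - cr d (y - x)))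
    (b := - cr d (y - x) / (cr d (w - x) - cr d (y - x))) (by positivity)
    (div_pos (by linarith) a0) (by field_simp; ring)
  refine interior_of_line hC hd hd0 a1 ?_
  have e : ∀ a b : ℝ, a + b = 1 → cr d (a • y + b • w - x) =
      a * cr d (y - x) + b * cr d (w - x) := by
    intro a b hab
    have : b = 1 - a := by linarith
    subst this
    simp only [cr, Prod.fst_sub, Prod.snd_sub, Prod.fst_add, Prod.snd_add, Prod.smul_fst,
      Prod.smul_snd, smul_eq_mul]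
    ring
  rw [e _ _ (by field_simp; ring)]
  field_simp
  ring

theorem interior_nonempty (hC : Convex ℝ C) (hd : ∀ s ∈ Icc (-1:ℝ) 1, x + s • d ∈ C)
    {y : ℝ × ℝ} (hy : y ∈ C) (h : cr d (y - x) ≠ 0) : (interior C).Nonempty := by
  rw [hC.interior_nonempty_iff_affineSpan_eq_top, eq_top_iff]
  intro z _
  have h0 : x ∈ affineSpan ℝ C := subset_affineSpan ℝ C (by simpa using hd 0 (by simp))
  have h1 : x + d ∈ affineSpan ℝ C := subset_affineSpan ℝ C (by simpa using hd 1 (by simp))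
  have h2 := (affineSpan ℝ C).smul_vsub_vadd_mem (cr (z - x) (y - x) / cr d (y - x)) h1 h0
    ((affineSpan ℝ C).smul_vsub_vadd_mem (cr d (z - x) / cr d (y - x))
      (subset_affineSpan ℝ C hy) h0 h0)
  rwa [vsub_eq_sub, vsub_eq_sub, vadd_eq_add, vadd_eq_add, add_sub_cancel_left, ← add_assoc,
    ← cramer h, sub_add_cancel] at h2

theorem exists_level (hC : Convex ℝ C) (A : ℝ × ℝ →ᵃ[ℝ] ℝ) {t : ℝ} {v : ℝ × ℝ}
    (hw : w ∈ interior C) (hv : v ∈ C) (h : (t - A w) / (A v - A w) ∈ Ico (0:ℝ) 1)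
    (hne : A v ≠ A w) : ∃ z ∈ interior C, A z = t := by
  have a1 := hC.combo_interior_self_mem_interior hw hv (a := 1 - (t - A w) / (A v - A w))
    (b := (t - A w) / (A v - A w)) (by linarith [h.2]) h.1 (by ring)
  refine ⟨_, a1, ?_⟩
  rw [Convex.combo_affine_apply (by ring), smul_eq_mul, smul_eq_mul]
  have := sub_ne_zero.2 hne
  field_simp
  ring

/-- a line through a convex body cuts out a segment with ends on the frontier -/
theorem cut (hK : IsCompact C) (hC : Convex ℝ C) (hi : (interior C).Nonempty)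
    (A : ℝ × ℝ →ᵃ[ℝ] ℝ) {t : ℝ} {u v : ℝ × ℝ} (hu : u ∈ C) (hv : v ∈ C) (hut : A u < t)
    (hvt : t < A v) : ∃ p q, p ≠ q ∧ {y ∈ C | A y = t} = segment ℝ p q ∧
      ∀ y ∈ segment ℝ p q, (y ∉ interior C ↔ (y = p ∨ y = q)) := by
  obtain ⟨z, hz, hzt⟩ : ∃ z ∈ interior C, A z = t := by
    obtain ⟨w, hw⟩ := hi
    rcases le_or_gt (A w) t with h | h
    · exact exists_level hC A hw hv ⟨div_nonneg (by linarith) (by linarith),
        (div_lt_one (by linarith)).2 (by linarith)⟩ (by linarith : A w < A v).ne'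
    · exact exists_level hC A hw hu ⟨div_nonneg_of_nonpos (by linarith) (by linarith),
        (div_lt_one_of_neg (by linarith)).2 (by linarith)⟩ (by linarith : A u < A w).ne
  let k : ℝ × ℝ := (A.linear (0, 1), - A.linear (1, 0))
  have hA : ∀ y, A y = t + cr k (y - z) := by
    intro y
    have h1 := aff_line A z (y - z) 1
    have h2 : y - z = (y - z).1 • ((1, 0) : ℝ × ℝ) + (y - z).2 • ((0, 1) : ℝ × ℝ) := by
      ext <;> simp
    rw [one_smul, add_sub_cancel, hzt, one_mul, h2, map_add, map_smul, map_smul] at h1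
    rw [h1]
    simp only [cr, k, smul_eq_mul]
    ring
  have hk : k ≠ 0 := by
    intro h
    rw [hA u, h] at hut
    simp [cr] at hut
  let f : ℝ →ᵃ[ℝ] ℝ × ℝ := AffineMap.lineMap z (z + k)
  have hf : ∀ s, f s = s • k + z := fun s => by
    rw [AffineMap.lineMap_apply, vadd_eq_add, vsub_eq_sub, add_sub_cancel_left]
  have h1 : f '' (f ⁻¹' C) = {y ∈ C | A y = t} := by
    ext y
    constructor
    · rintro ⟨s, hs, rfl⟩
      refine ⟨hs, ?_⟩
      rw [hA, hf, add_sub_cancel_right, cr_smul]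
      simp [cr, mul_comm]
    · rintro ⟨hy, hyt⟩
      obtain ⟨s, hs⟩ := exists_smul_of_cr hk (v := y - z) (by linarith [hA y])
      have : f s = y := by rw [hf, ← hs, sub_add_cancel]
      exact ⟨s, by rw [mem_preimage, this]; exact hy, this⟩
  have h2 : IsClosedEmbedding f := by
    rw [show (f : ℝ → ℝ × ℝ) = (Homeomorph.addRight z) ∘ fun s : ℝ => s • k from funext hf]
    exact (Homeomorph.addRight z).isClosedEmbedding.comp (isClosedEmbedding_smul_left hk)
  have h3 : f 0 = z := by rw [hf, zero_smul, zero_add]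
  have h4 := eq_Icc_of_connected_compact ((hC.affine_preimage f).isConnected
    ⟨0, by rw [mem_preimage, h3]; exact interior_subset hz⟩) (h2.isCompact_preimage hK)
  generalize sInf (f ⁻¹' C) = α, sSup (f ⁻¹' C) = β at h4
  have h5 : ∀ s, f s ∈ interior C → s ∈ Ioo α β := fun s hs => by
    rw [← interior_Icc, ← h4]
    exact preimage_interior_subset_interior_preimage h2.continuous hs
  have h6 := h5 0 (h3 ▸ hz)
  have hαβ := h6.1.trans h6.2
  have h7 : ∀ s ∈ Icc α β, f s ∈ C := fun s hs => by rwa [← h4] at hs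
  rw [h4, ← segment_eq_Icc hαβ.le, image_segment] at h1
  refine ⟨f α, f β, fun h => hαβ.ne (h2.injective h), h1.symm, fun y hy => ?_⟩
  rw [← image_segment, segment_eq_Icc hαβ.le] at hy
  obtain ⟨s, hs, rfl⟩ := hy
  constructor
  · intro h
    by_contra h'
    have s1 : α < s := hs.1.lt_of_ne fun e => h' (Or.inl (e ▸ rfl))
    have s2 : s < β := hs.2.lt_of_ne fun e => h' (Or.inr (e ▸ rfl))
    have e0 : 0 < min (s - α) (β - s) := lt_min (by linarith) (by linarith)
    refine h (interior_of_line hC (d := min (s - α) (β - s) • k) (fun σ hσ => ?_)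
      (smul_ne_zero e0.ne' hk) hz ?_)
    · have e : f s + σ • min (s - α) (β - s) • k = f (s + σ * min (s - α) (β - s)) := by
        rw [hf, hf]
        match_scalars <;> ring
      rw [e]
      have m1 := min_le_left (s - α) (β - s)
      have m2 := min_le_right (s - α) (β - s)
      exact h7 _ ⟨by nlinarith [hσ.1], by nlinarith [hσ.2]⟩
    · rw [hf]
      simp only [cr, Prod.fst_sub, Prod.snd_sub, Prod.fst_add, Prod.snd_add, Prod.smul_fst,
        Prod.smul_snd, smul_eq_mul]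
      ring
  · rintro (h | h) h'
    · exact (h5 s h').1.ne' (h2.injective h)
    · exact (h5 s h').2.ne (h2.injective h)

variable {K : RCx (ℝ × ℝ)} {Q : Set (ℝ × ℝ)} {g : ℝ × ℝ → ℝ} {t : ℝ}

/-- cells in `Q` with interior points -/
def Fat (K : RCx (ℝ × ℝ)) (Q : Set (ℝ × ℝ)) (i : K.ι) : Prop :=
  K.cell i ⊆ Q ∧ (interior (K.cell i)).Nonempty

theorem Fat.ocell (hK : K.Cvx) {i : K.ι} (h : Fat K Q i) : K.ocell i = interior (K.cell i) := by
  rw [hK.ocell_eq, intrinsicInterior_of_top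
    ((hK i).1.interior_nonempty_iff_affineSpan_eq_top.1 h.2)]

theorem Fat.eq (hK : K.Cvx) {i j : K.ι} (hi : Fat K Q i) (hj : Fat K Q j)
    (h1 : x ∈ interior (K.cell i)) (h2 : x ∈ K.cell j) : j = i := by
  have h3 : x ∈ K.ocell i := hi.ocell hK ▸ h1
  exact K.ocell_unique (hj.ocell hK ▸ interior_mono (K.cell_subset_of_mem h3 h2) h1) h3

/-- one side of an edge -/
theorem one_side (hK : K.Cvx) (hQ : K.Sub Q) {c : K.ι} (hx : x ∈ K.ocell c) (hd0 : d ≠ 0)
    (hd : ∀ s ∈ Icc (-1:ℝ) 1, x + s • d ∈ K.cell c)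
    (hn : ∀ j, Fat K Q j → x ∉ interior (K.cell j)) {v : ℝ × ℝ} (hv : 0 < cr d v)
    (hvQ : ∀ᶠ s in 𝓝[>] (0:ℝ), x + s • v ∈ Q) :
    ∃ j, Fat K Q j ∧ x ∈ K.cell j ∧ (∃ w ∈ interior (K.cell j), 0 < cr d (w - x)) ∧
      ∀ j', Fat K Q j' → x ∈ K.cell j' → (∃ w ∈ interior (K.cell j'), 0 < cr d (w - x)) →
        j' = j := by
  have t1 : Tendsto (fun s : ℝ => x + s • v) (𝓝[>] 0) (𝓝 x) :=
    ((by fun_prop : Continuous fun s : ℝ => x + s • v).tendsto' 0 x (by simp)).mono_left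
      nhdsWithin_le_nhds
  obtain ⟨s, ⟨hs1, hs2⟩, hs0⟩ := ((hvQ.and (t1.eventually (K.eventually_coface hx))).and
    self_mem_nhdsWithin).exists
  obtain ⟨j, hj, hjQ⟩ := hQ _ hs1
  have hcj := hs2 j hj
  have hdj : ∀ s ∈ Icc (-1:ℝ) 1, x + s • d ∈ K.cell j := fun s hs => hcj (hd s hs)
  have hpos : 0 < cr d (x + s • v - x) := by
    rw [add_sub_cancel_left, cr_smul]
    exact mul_pos hs0 hv
  have hF : Fat K Q j := ⟨hjQ, interior_nonempty (hK j).1 hdj hj hpos.ne'⟩
  obtain ⟨w, hw⟩ := hF.2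
  have hw' : 0 < cr d (w - x) := by
    rcases lt_trichotomy (cr d (w - x)) 0 with h | h | h
    · refine absurd (interior_of_sides (hK j).1 (d := -d) (fun s hs => ?_) (neg_ne_zero.2 hd0) hw
        (by rw [cr_neg]; linarith) hj (by rw [cr_neg]; linarith)) (hn j hF)
      rw [smul_neg, ← neg_smul]
      exact hdj _ ⟨by linarith [hs.2], by linarith [hs.1]⟩
    · exact absurd (interior_of_line (hK j).1 hdj hd0 hw h) (hn j hF)
    · exact h
  refine ⟨j, hF, hcj hx.1, ⟨w, hw, hw'⟩, ?_⟩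
  rintro j' hF' hxj' ⟨w', hw1, hw2⟩
  obtain ⟨σ, h1, h2⟩ := ((side_interior (hK j).1 hdj hw hw' hv).and (side_interior (hK j').1
    (fun s hs => K.cell_subset_of_mem hx hxj' (hd s hs)) hw1 hw2 hv)).exists
  exact hF.eq hK hF' h1 (interior_subset h2)

/-- the number of fat cells at a point of the level -/
theorem Gen.fat (h : Gen K Q g t) (hQ : Convex ℝ Q) (hi : (interior Q).Nonempty) (hx : x ∈ Q)
    (hxt : g x = t) : (∃ j, {i | Fat K Q i ∧ x ∈ K.cell i} = {j} ∧
      (x ∉ interior Q ∨ x ∈ interior (K.cell j))) ∨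
      (x ∈ interior Q ∧ ∃ j j', j ≠ j' ∧ {i | Fat K Q i ∧ x ∈ K.cell i} = {j, j'}) := by
  by_cases hn : ∃ j, Fat K Q j ∧ x ∈ interior (K.cell j)
  · obtain ⟨j, hj, hxj⟩ := hn
    exact Or.inl ⟨j, eq_singleton_iff_unique_mem.2 ⟨⟨hj, interior_subset hxj⟩,
      fun j' hj' => hj.eq h.cvx hj'.1 hxj hj'.2⟩, Or.inr hxj⟩
  have hn : ∀ j, Fat K Q j → x ∉ interior (K.cell j) := fun j hj hxj => hn ⟨j, hj, hxj⟩
  obtain ⟨c, hc, hcQ⟩ := h.sub.exists_ocell hx
  obtain ⟨d, hd0, hd⟩ : ∃ d : ℝ × ℝ, d ≠ 0 ∧ ∀ s ∈ Icc (-1:ℝ) 1, x + s • d ∈ K.cell c := by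
    obtain ⟨d, m, hm, hd⟩ := h.sign hc hcQ hxt
    refine ⟨d, fun e => ?_, fun s hs => (hd s hs).1⟩
    have := (hd 1 (by simp)).2
    rw [e, smul_zero, add_zero, hxt] at this
    linarith
  have hneg : ∀ {d : ℝ × ℝ}, (∀ s ∈ Icc (-1:ℝ) 1, x + s • d ∈ K.cell c) →
      ∀ s ∈ Icc (-1:ℝ) 1, x + s • (-d) ∈ K.cell c := fun hd s hs => by
    rw [smul_neg, ← neg_smul]
    exact hd _ ⟨by linarith [hs.2], by linarith [hs.1]⟩
  have htri : ∀ {d : ℝ × ℝ}, d ≠ 0 → (∀ s ∈ Icc (-1:ℝ) 1, x + s • d ∈ K.cell c) →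
      ∀ j, Fat K Q j → x ∈ K.cell j → (∃ w ∈ interior (K.cell j), 0 < cr d (w - x)) ∨
        ∃ w ∈ interior (K.cell j), 0 < cr (-d) (w - x) := by
    intro d hd0 hd j hj hxj
    obtain ⟨w, hw⟩ := hj.2
    rcases lt_trichotomy (cr d (w - x)) 0 with e | e | e
    · exact Or.inr ⟨w, hw, by rw [cr_neg]; linarith⟩
    · exact absurd (interior_of_line (h.cvx j).1
        (fun s hs => K.cell_subset_of_mem hc hxj (hd s hs)) hd0 hw e) (hn j hj)
    · exact Or.inl ⟨w, hw, e⟩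
  by_cases hxQ : x ∈ interior Q
  · have hev : ∀ v : ℝ × ℝ, ∀ᶠ s in 𝓝[>] (0:ℝ), x + s • v ∈ Q := fun v =>
      (((by fun_prop : Continuous fun s : ℝ => x + s • v).tendsto' 0 x (by simp)).mono_left
        nhdsWithin_le_nhds).eventually_mem (mem_interior_iff_mem_nhds.1 hxQ)
    have hv := cr_perp hd0
    obtain ⟨j, a1, a2, ⟨w, a3, a4⟩, a5⟩ := one_side h.cvx h.sub hc hd0 hd hn hv (hev _)
    obtain ⟨j', b1, b2, ⟨w', b3, b4⟩, b5⟩ := one_side h.cvx h.sub hc (neg_ne_zero.2 hd0) (hneg hd)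
      hn (v := (-1 : ℝ) • (-d.2, d.1)) (by rw [cr_neg, cr_smul]; linarith) (hev _)
    refine Or.inr ⟨hxQ, j, j', fun e => ?_, Subset.antisymm (fun i hi => ?_) ?_⟩
    · subst e
      exact hn j a1 (interior_of_sides (h.cvx j).1
        (fun s hs => K.cell_subset_of_mem hc a2 (hd s hs)) hd0 a3 a4 (interior_subset b3)
        (by rw [cr_neg] at b4; linarith))
    · exact (htri hd0 hd i hi.1 hi.2).imp (a5 i hi.1 hi.2) (b5 i hi.1 hi.2)
    · rintro i (rfl | rfl)
      exacts [⟨a1, a2⟩, ⟨b1, b2⟩]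
  · obtain ⟨w, hw⟩ := hi
    have key : ∀ {d : ℝ × ℝ}, d ≠ 0 → (∀ s ∈ Icc (-1:ℝ) 1, x + s • d ∈ K.cell c) →
        0 < cr d (w - x) → ∃ j, {i | Fat K Q i ∧ x ∈ K.cell i} = {j} := by
      intro d hd0 hd hp
      have hdQ : ∀ s ∈ Icc (-1:ℝ) 1, x + s • d ∈ Q := fun s hs => hcQ (hd s hs)
      obtain ⟨j, a1, a2, -, a5⟩ := one_side h.cvx h.sub hc hd0 hd hn hp
        ((side_interior hQ hdQ hw hp hp).mono fun s hs => interior_subset hs)
      refine ⟨j, eq_singleton_iff_unique_mem.2 ⟨⟨a1, a2⟩, fun i hi => a5 i hi.1 hi.2 ?_⟩⟩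
      refine (htri hd0 hd i hi.1 hi.2).resolve_right ?_
      rintro ⟨w', b3, b4⟩
      exact hxQ (interior_of_sides hQ hdQ hd0 hw hp (hi.1.1 (interior_subset b3))
        (by rw [cr_neg] at b4; linarith))
    refine Or.inl ?_
    rcases lt_trichotomy (cr d (w - x)) 0 with e | e | e
    · exact (key (neg_ne_zero.2 hd0) (hneg hd) (by rw [cr_neg]; linarith)).imp
        fun j hj => ⟨hj, Or.inl hxQ⟩
    · exact absurd (interior_of_line hQ (fun s hs => hcQ (hd s hs)) hd0 hw e) hxQ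
    · exact (key hd0 hd e).imp fun j hj => ⟨hj, Or.inl hxQ⟩

end A14

end P073
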